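import Vale.Agent.P057Z.Sk

/-! Pull backs of quadratic maps, composition of losses. -/

set_option linter.all false

open Finset
open scoped BigOperators

namespace Vale.Agent.P057Z

noncomputable section

variable {Q : ℕ} [Fact Q.Prime] {n n' : ℕ} {ι : Type} [Fintype ι] [DecidableEq ι]

/-- pull back along an affine map -/
def Quad.comp (q : Quad Q n ι) (x0 : V Q n) (P : V Q n' →ₗ[ZMod Q] V Q n) : Quad Q n' ι where
  c := q.ev x0
  l := (q.l + q.B x0).comp P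
  B := q.B.compl₁₂ P P
  sym := fun x y => by simp only [LinearMap.compl₁₂_apply]; exact q.sym _ _

theorem two_ne (hQ : 2 < Q) : (2 : ZMod Q) ≠ 0 := by
  intro h
  have h2 : ((2 : ℕ) : ZMod Q) = 0 := by exact_mod_cast h
  rw [ZMod.natCast_eq_zero_iff] at h2
  exact absurd (Nat.le_of_dvd (by norm_num) h2) (by omega)

theorem int_ne (j : ℤ) (hj : j ≠ 0) (hQ : |j| < Q) : (j : ZMod Q) ≠ 0 := by
  intro h
  rw [ZMod.intCast_zmod_eq_zero_iff_dvd] at h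
  have := Int.le_of_dvd (abs_pos.mpr hj) ((dvd_abs _ _).mpr h)
  omega

theorem Quad.ev_add (hQ : 2 < Q) (q : Quad Q n ι) (x y : V Q n) :
    q.ev (x + y) = q.ev x + (q.l y + q.B x y) + (2 : ZMod Q)⁻¹ • q.B y y := by
  have h2 := two_ne hQ
  have e : (2 : ZMod Q)⁻¹ • (q.B x y + q.B x y) = q.B x y := by
    rw [← two_smul (ZMod Q) (q.B x y), smul_smul, inv_mul_cancel₀ h2, one_smul]
  unfold Quad.ev
  simp only [map_add, LinearMap.add_apply]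
  rw [q.sym y x]
  have e2 : (2 : ZMod Q)⁻¹ • (q.B x x + q.B x y + (q.B x y + q.B y y)) =
      (2 : ZMod Q)⁻¹ • q.B x x + (2 : ZMod Q)⁻¹ • (q.B x y + q.B x y) +
        (2 : ZMod Q)⁻¹ • q.B y y := by
    simp only [smul_add]; abel
  rw [e2, e]; abel

theorem Quad.ev_comp (hQ : 2 < Q) (q : Quad Q n ι) (x0 : V Q n) (P : V Q n' →ₗ[ZMod Q] V Q n)
    (x : V Q n') : (q.comp x0 P).ev x = q.ev (x0 + P x) := by
  rw [q.ev_add hQ]
  rfl

@[simp] theorem Quad.comp_B (q : Quad Q n ι) (x0 : V Q n) (P : V Q n' →ₗ[ZMod Q] V Q n)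
    (x y : V Q n') : (q.comp x0 P).B x y = q.B (P x) (P y) := rfl

@[simp] theorem Quad.comp_l (q : Quad Q n ι) (x0 : V Q n) (P : V Q n' →ₗ[ZMod Q] V Q n)
    (y : V Q n') : (q.comp x0 P).l y = q.l (P y) + q.B x0 (P y) := rfl

theorem mem_perp {K : Submodule (ZMod Q) (ι → ZMod Q)} {u : ι → ZMod Q} :
    u ∈ perp K ↔ ∀ k ∈ K, k ⬝ᵥ u = 0 := by
  unfold perp; simp

theorem perp_zero (K : Submodule (ZMod Q) (ι → ZMod Q)) : (0 : ι → ZMod Q) ∈ perp K :=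
  mem_perp.mpr fun k _ => dotProduct_zero k

theorem perp_add {K : Submodule (ZMod Q) (ι → ZMod Q)} {u v : ι → ZMod Q} (hu : u ∈ perp K)
    (hv : v ∈ perp K) : u + v ∈ perp K :=
  mem_perp.mpr fun k hk => by
    rw [dotProduct_add, mem_perp.mp hu k hk, mem_perp.mp hv k hk, add_zero]

theorem perp_smul {K : Submodule (ZMod Q) (ι → ZMod Q)} (c : ZMod Q) {u : ι → ZMod Q}
    (hu : u ∈ perp K) : c • u ∈ perp K :=
  mem_perp.mpr fun k hk => by rw [dotProduct_smul, mem_perp.mp hu k hk, smul_zero]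

theorem perp_zsmul {K : Submodule (ZMod Q) (ι → ZMod Q)} (c : ℤ) {u : ι → ZMod Q}
    (hu : u ∈ perp K) : c • u ∈ perp K := by
  rw [← Int.cast_smul_eq_zsmul (ZMod Q)]; exact perp_smul _ hu

theorem perp_neg {K : Submodule (ZMod Q) (ι → ZMod Q)} {u : ι → ZMod Q}
    (hu : u ∈ perp K) : -u ∈ perp K := by
  have := perp_smul (-1) hu
  rwa [neg_one_smul] at this

theorem perp_sub {K : Submodule (ZMod Q) (ι → ZMod Q)} {u v : ι → ZMod Q} (hu : u ∈ perp K)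
    (hv : v ∈ perp K) : u - v ∈ perp K := by
  rw [sub_eq_add_neg]; exact perp_add hu (perp_neg hv)

theorem perp_nonempty (K : Submodule (ZMod Q) (ι → ZMod Q)) : (perp K).Nonempty :=
  ⟨0, perp_zero K⟩

theorem Triv.comp {q : Quad Q n ι} {K : Submodule (ZMod Q) (ι → ZMod Q)} (h : Triv q K)
    (x0 : V Q n) (P : V Q n' →ₗ[ZMod Q] V Q n) : Triv (q.comp x0 P) K :=
  ⟨fun y => perp_add (h.1 _) (h.2 _ _), fun x y => h.2 _ _⟩

/-- all values lie in the coset of the constant term -/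
theorem Triv.ev {q : Quad Q n ι} {K : Submodule (ZMod Q) (ι → ZMod Q)} (h : Triv q K)
    (x : V Q n) : ∃ v ∈ perp K, q.ev x = q.c + v :=
  ⟨q.l x + (2 : ZMod Q)⁻¹ • q.B x x, perp_add (h.1 x) (perp_smul _ (h.2 x x)), by
    unfold Quad.ev; rw [add_assoc]⟩

theorem Reg.mono {B : Bil Q n ι} {K : Submodule (ZMod Q) (ι → ZMod Q)} {K0 K0' : ℕ} {δ δ' : ℝ}
    {Tlo Thi Tlo' Thi' : ℕ} (h : Reg B K K0 δ Tlo Thi) (hK : K0' ≤ K0) (hδ : δ ≤ δ')
    (hlo : Tlo ≤ Tlo') (hhi : Thi' ≤ Thi) : Reg B K K0' δ' Tlo' Thi' := by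
  intro k hk hkK T1 T2 h1 h2 h3 h4 u v hu hv
  refine (h k ?_ hkK T1 T2 (by omega) (by omega) (by omega) (by omega) u v hu hv).trans hδ
  unfold Sm at hk ⊢
  rw [Fintype.mem_piFinset] at hk ⊢
  intro i
  have := mem_Icc.mp (hk i)
  exact mem_Icc.mpr ⟨by omega, by omega⟩

theorem Free.comp {f : V Q n → ℝ} (h : Free f) (x0 : V Q n) (P : V Q n' →ₗ[ZMod Q] V Q n)
    (hP : Function.Injective P) : Free (fun z => f (x0 + P z)) := by
  intro x v hv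
  have hPv : P v ≠ 0 := fun e => hv (hP (by rw [e, map_zero]))
  have := h (x0 + P x) (P v) hPv
  simp only [map_add]
  simpa only [add_assoc] using this

theorem Shr.mono {n T n' T' : ℕ} {R s Λ R' s' Λ' : ℝ} (h : Shr n T n' T' R s Λ) (hR : R ≤ R')
    (hs : s ≤ s') (hΛ : Λ ≤ Λ') : Shr n T n' T' R' s' Λ' := by
  obtain ⟨h1, h2, h3, h4, h5⟩ := h
  refine ⟨by linarith, h2, h3, h4, ?_⟩
  have : 0 ≤ Real.log T := Real.log_natCast_nonneg T
  nlinarith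

theorem Shr.trans {n T n' T' n'' T'' : ℕ} {R s Λ R' s' Λ' : ℝ} (h : Shr n T n' T' R s Λ)
    (h' : Shr n' T' n'' T'' R' s' Λ') (hs : 0 ≤ s) (hs' : 0 ≤ s') (hs1 : s' ≤ 1) (hΛ : 0 ≤ Λ) :
    Shr n T n'' T'' (R + R') (s + s') (Λ + Λ') := by
  obtain ⟨h1, h2, h3, h4, h5⟩ := h
  obtain ⟨g1, g2, g3, g4, g5⟩ := h'
  refine ⟨by linarith, g2.trans h2, g3, g4.trans h4, ?_⟩
  have hT : 0 ≤ Real.log T := Real.log_natCast_nonneg T
  have a1 : (1 - s') * ((1 - s) * Real.log T - Λ) ≤ (1 - s') * Real.log T' :=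
    mul_le_mul_of_nonneg_left h5 (by linarith)
  have a2 : 0 ≤ s * s' * Real.log T := by positivity
  have a3 : 0 ≤ s' * Λ := by positivity
  nlinarith

/-- a smaller side of the same rank -/
theorem Shr.of_le {n T T' : ℕ} {Λ : ℝ} (h1 : 1 ≤ T') (h2 : T' ≤ T)
    (h3 : Real.log T - Λ ≤ Real.log T') : Shr n T n T' 0 0 Λ :=
  ⟨by simp, le_rfl, h1, h2, by simpa using h3⟩

theorem LL.mono {lam lam' : ℝ} {Ψ : (ι → ZMod Q) → ℝ} (h : LL lam Ψ) (hl : lam ≤ lam') :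
    LL lam' Ψ := by
  refine ⟨h.pos, h.le_one, fun u v => (h.lip u v).trans ?_⟩
  refine mul_le_mul_of_nonneg_right (Real.exp_le_exp.mpr ?_) (h.pos u).le
  refine mul_le_mul_of_nonneg_right hl ?_
  unfold l1 nm
  exact sum_nonneg fun i _ => by positivity

theorem Inc.mono {f : V Q n → ℝ} {θ θ' : ℝ} {T : ℕ} {R s Λ D lam κ R' s' Λ' D' lam' κ' : ℝ}
    (h : Inc f θ T R s Λ D lam κ) (hθ : θ' ≤ θ) (hR : R ≤ R') (hs : s ≤ s') (hΛ : Λ ≤ Λ')
    (hD : D ≤ D') (hl : lam ≤ lam') (hκ : κ' ≤ κ) : Inc f θ' T R' s' Λ' D' lam' κ' := by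
  obtain ⟨n', T', ι, i1, i2, x0, P, q, Ψ, hP, hS, hc, hL, hk⟩ := h
  refine ⟨n', T', ι, i1, i2, x0, P, q, Ψ, hP, hS.mono hR hs hΛ, hc.trans hD, hL.mono hl, ?_⟩
  refine hκ.trans (hk.trans (expect_le_expect fun x _ => ?_))
  exact mul_le_mul_of_nonneg_left (by linarith) (hL.pos _).le

/-- an increment on a subcell is an increment -/
theorem Inc.comp {f : V Q n → ℝ} {θ : ℝ} {T T' : ℕ} {R s Λ R' s' Λ' D lam κ : ℝ} {x0 : V Q n}
    {P : V Q n' →ₗ[ZMod Q] V Q n} (hP : Function.Injective P) (hS : Shr n T n' T' R s Λ)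
    (h : Inc (fun z => f (x0 + P z)) θ T' R' s' Λ' D lam κ) (hs : 0 ≤ s) (hs' : 0 ≤ s')
    (hs1 : s' ≤ 1) (hΛ : 0 ≤ Λ) : Inc f θ T (R + R') (s + s') (Λ + Λ') D lam κ := by
  obtain ⟨n'', T'', ι, i1, i2, x1, P1, q, Ψ, hP1, hS1, hc, hL, hk⟩ := h
  refine ⟨n'', T'', ι, i1, i2, x0 + P x1, P.comp P1, q, Ψ, hP.comp hP1,
    hS.trans hS1 hs hs' hs1 hΛ, hc, hL, ?_⟩
  simpa only [map_add, add_assoc, LinearMap.comp_apply] using hk

theorem rectQ_iff {f : V Q n → ℝ} {θ : ℝ} {T W : ℕ} {q : Quad Q n ι} {Ψ : (ι → ZMod Q) → ℝ}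
    {κ : ℝ} : RectQ f θ T W q Ψ κ ↔ ∃ u v, U01 u ∧ U01 v ∧ κ ≤ RQ f θ T W q Ψ u v := Iff.rfl

/-- multiplication by an integer as a linear map -/
def dil (Q n : ℕ) (j : ℤ) : V Q n →ₗ[ZMod Q] V Q n := (j : ZMod Q) • LinearMap.id

theorem dil_apply (j : ℤ) (x : V Q n) : dil Q n j x = j • x := by
  unfold dil
  rw [LinearMap.smul_apply, LinearMap.id_apply, Int.cast_smul_eq_zsmul]

theorem dil_inj {j : ℤ} (hj : (j : ZMod Q) ≠ 0) : Function.Injective (dil Q n j) := by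
  intro x y h
  unfold dil at h
  simp only [LinearMap.smul_apply, LinearMap.id_apply] at h
  exact smul_right_injective _ hj h

theorem Par.mono {C C' : ℕ} {X Y Z : ℝ} (h : Par C X Y Z) (hC : C' ≤ C) (h1 : 1 ≤ C) :
    Par C' X Y Z := by
  obtain ⟨a, b, c, d⟩ := h
  have hC' : (C' : ℝ) ≤ C := by exact_mod_cast hC
  have h1' : (1 : ℝ) ≤ C := by exact_mod_cast h1
  exact ⟨hC'.trans a, b, c, (pow_le_pow_right₀ (by linarith) hC).trans d⟩

end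

end Vale.Agent.P057Z
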