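import Vale.Agent.P057.MathlibUsed
import Mathlib.Analysis.SpecialFunctions.Complex.CircleAddChar
import Mathlib.Algebra.BigOperators.Expect
import Mathlib.Algebra.Order.BigOperators.Expect
import Mathlib.LinearAlgebra.BilinearMap
import Mathlib.Data.ZMod.ValMinAbs

/-! Definitions for the bound on sets without four term progressions (notes/P057_k4.md). -/

set_option linter.all false

open Finset
open scoped BigOperators

namespace Vale.Agent.P057Z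

noncomputable section

/-- the ambient group -/
abbrev V (Q n : ℕ) := Fin n → ZMod Q

/-- bilinear maps with vector values -/
abbrev Bil (Q n : ℕ) (ι : Type) := V Q n →ₗ[ZMod Q] V Q n →ₗ[ZMod Q] (ι → ZMod Q)

variable {Q : ℕ} [Fact Q.Prime] {n : ℕ} {ι : Type} [Fintype ι] [DecidableEq ι]

/-- the box: image of the cube of naturals below T -/
def bx (Q n T : ℕ) [Fact Q.Prime] : Finset (V Q n) :=
  Fintype.piFinset fun _ => (range T).image (Nat.cast : ℕ → ZMod Q)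

/-- distance of u / Q to the nearest integer -/
def nm (u : ZMod Q) : ℝ := |(u.valMinAbs : ℝ)| / Q

def l1 (u : ι → ZMod Q) : ℝ := ∑ i, nm (u i)

/-- the standard additive character -/
def ch (u : ZMod Q) : ℂ := ZMod.stdAddChar u

/-- reduction of an integer vector -/
def cs (Q : ℕ) {ι : Type} (k : ι → ℤ) : ι → ZMod Q := fun i => (k i : ZMod Q)

/-- small integer vectors -/
def Sm (ι : Type) [Fintype ι] [DecidableEq ι] (K0 : ℕ) : Finset (ι → ℤ) :=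
  Fintype.piFinset fun _ => Icc (-(K0 : ℤ)) K0

/-- x is the reduction of an integer vector with entries of size at most t -/
def Near (x : V Q n) (t : ℕ) : Prop := ∃ v : Fin n → ℤ, (∀ i, |v i| ≤ t) ∧ x = cs Q v

/-- the columns of P are small -/
def SmallMap {n' : ℕ} (P : V Q n' →ₗ[ZMod Q] V Q n) (T0 : ℕ) : Prop :=
  ∀ m, Near (P (Pi.single m 1)) T0

/-- positive, at most one, logarithmically Lipschitz -/
structure LL (lam : ℝ) (Ψ : (ι → ZMod Q) → ℝ) : Prop where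
  pos : ∀ u, 0 < Ψ u
  le_one : ∀ u, Ψ u ≤ 1
  lip : ∀ u v, Ψ (u + v) ≤ Real.exp (lam * l1 v) * Ψ u

/-- uniform approximation by a trigonometric polynomial with small frequencies -/
def FA (Ψ : (ι → ZMod Q) → ℝ) (K0 : ℕ) (M η : ℝ) : Prop :=
  ∃ c : (ι → ℤ) → ℂ, ∑ k ∈ Sm ι K0, ‖c k‖ ≤ M ∧
    ∀ u, ‖(Ψ u : ℂ) - ∑ k ∈ Sm ι K0, c k * ch (cs Q k ⬝ᵥ u)‖ ≤ η

/-- the Laplace kernel -/
def lap (ρ : ℝ) (u : ι → ZMod Q) : ℝ := Real.exp (-(l1 u) / ρ)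

/-- a smoothed Laplace kernel -/
structure Kern (ρ : ℝ) (φ : (ι → ZMod Q) → ℝ) (K0 : ℕ) (M η : ℝ) : Prop where
  ll : LL (1 / ρ) φ
  lo : ∀ u, lap ρ u / 2 ≤ φ u
  hi : ∀ u, φ u ≤ 2 * lap ρ u
  fa : FA φ K0 M η

open Classical in
/-- the annihilator of a subspace of frequencies -/
def perp (K : Submodule (ZMod Q) (ι → ZMod Q)) : Finset (ι → ZMod Q) :=
  univ.filter fun u => ∀ k ∈ K, k ⬝ᵥ u = 0

/-- average over a coset of the annihilator -/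
def avg (K : Submodule (ZMod Q) (ι → ZMod Q)) (Ψ : (ι → ZMod Q) → ℝ) (u : ι → ZMod Q) : ℝ :=
  𝔼 v ∈ perp K, Ψ (u + v)

/-- a vector valued quadratic polynomial -/
structure Quad (Q n : ℕ) (ι : Type) where
  c : ι → ZMod Q
  l : V Q n →ₗ[ZMod Q] (ι → ZMod Q)
  B : Bil Q n ι
  sym : ∀ x y, B x y = B y x

def Quad.ev (q : Quad Q n ι) (x : V Q n) : ι → ZMod Q :=
  q.c + q.l x + (2 : ZMod Q)⁻¹ • q.B x x

/-- the values of q lie in one coset of the annihilator of K -/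
def Triv (q : Quad Q n ι) (K : Submodule (ZMod Q) (ι → ZMod Q)) : Prop :=
  (∀ y, q.l y ∈ perp K) ∧ ∀ x y, q.B x y ∈ perp K

/-- no small frequency outside K is biased on boxes of the given range of sides -/
def Reg (B : Bil Q n ι) (K : Submodule (ZMod Q) (ι → ZMod Q)) (K0 : ℕ) (δ : ℝ) (Tlo Thi : ℕ) :
    Prop :=
  ∀ k ∈ Sm ι K0, cs Q k ∉ K → ∀ T1 T2 : ℕ, Tlo ≤ T1 → T1 ≤ Thi → Tlo ≤ T2 → T2 ≤ Thi →
    ∀ u v : V Q n → ℂ, (∀ x, ‖u x‖ ≤ 1) → (∀ y, ‖v y‖ ≤ 1) →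
      ‖𝔼 x ∈ bx Q n T1, 𝔼 y ∈ bx Q n T2, u x * v y * ch (cs Q k ⬝ᵥ B x y)‖ ≤ δ

/-- the support of f has no four term progression -/
def Free (f : V Q n → ℝ) : Prop :=
  ∀ x v, v ≠ 0 → f x * f (x + v) * f (x + v + v) * f (x + v + v + v) = 0

/-- the three levels of parameters -/
def Par (C : ℕ) (X Y Z : ℝ) : Prop := (C : ℝ) ≤ X ∧ X ≤ Y ∧ Y ≤ Z ∧ Z ^ C ≤ Real.exp X

/-- loss of rank at most R, loss of side at most the power s and the factor exp Λ -/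
def Shr (n T n' T' : ℕ) (R s Λ : ℝ) : Prop :=
  (n : ℝ) ≤ n' + R ∧ n' ≤ n ∧ 1 ≤ T' ∧ T' ≤ T ∧ (1 - s) * Real.log T - Λ ≤ Real.log T'

/-- f exceeds θ on a cell -/
def Inc (f : V Q n → ℝ) (θ : ℝ) (T : ℕ) (R s Λ D lam κ : ℝ) : Prop :=
  ∃ (n' T' : ℕ) (ι : Type) (_ : Fintype ι) (_ : DecidableEq ι) (x0 : V Q n)
    (P : V Q n' →ₗ[ZMod Q] V Q n) (q : Quad Q n' ι) (Ψ : (ι → ZMod Q) → ℝ),
    Function.Injective P ∧ Shr n T n' T' R s Λ ∧ (Fintype.card ι : ℝ) ≤ D ∧ LL lam Ψ ∧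
      κ ≤ 𝔼 x ∈ bx Q n' T', Ψ (q.ev x) * (f (x0 + P x) - θ)

/-- values in the unit interval -/
def U01 {α : Type} (u : α → ℝ) : Prop := ∀ x, 0 ≤ u x ∧ u x ≤ 1

/-- f exceeds θ on a rectangle cut by a bilinear weight -/
def Rect (f : V Q n → ℝ) (θ : ℝ) (T W : ℕ) (C : Bil Q n ι) (Ω : (ι → ZMod Q) → ℝ) (κ : ℝ) : Prop :=
  ∃ (u Y : V Q n → ℝ) (α β : V Q n → ι → ZMod Q), U01 u ∧ U01 Y ∧
    κ ≤ 𝔼 a ∈ bx Q n T, 𝔼 b ∈ bx Q n (W * T), u a * Y b * Ω (C a b + α a + β b) * (f (a + b) - θ)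

/-- f exceeds θ on a rectangle cut by a quadratic weight of the sum -/
def RectQ (f : V Q n → ℝ) (θ : ℝ) (T W : ℕ) (q : Quad Q n ι) (Ψ : (ι → ZMod Q) → ℝ) (κ : ℝ) :
    Prop :=
  ∃ u Y : V Q n → ℝ, U01 u ∧ U01 Y ∧
    κ ≤ 𝔼 a ∈ bx Q n T, 𝔼 b ∈ bx Q n (W * T), u a * Y b * Ψ (q.ev (a + b)) * (f (a + b) - θ)

/-- f exceeds θ on a rectangle cut by frequencies that depend on h -/
def S3 (f : V Q n → ℝ) (θ : ℝ) (T W : ℕ) {r : ℕ} (ξ : V Q n → Fin r → V Q n) (B : Bil Q n ι)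
    (ρn ρ5 κ : ℝ) : Prop :=
  ∃ (u Y : V Q n → ℝ) (γ : V Q n → Fin r → ZMod Q) (α β : V Q n → ι → ZMod Q), U01 u ∧ U01 Y ∧
    κ ≤ 𝔼 h ∈ bx Q n T, 𝔼 s ∈ bx Q n (W * T),
      u h * Y s * lap ρn (fun i => ξ h i ⬝ᵥ s + γ h i) * lap ρ5 (B h s + α h + β s) *
        (f (h + s) - θ)

/-- vertex weight -/
def nv (ℓ : V Q n →ₗ[ZMod Q] (ι → ZMod Q)) (B : Bil Q n ι) (K : Submodule (ZMod Q) (ι → ZMod Q))
    (φ φ0 : (ι → ZMod Q) → ℝ) (y : V Q n) : ℝ :=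
  φ (ℓ y) * φ0 ((12 : ZMod Q)⁻¹ • B y y) / (avg K φ 0 * avg K φ0 0)

/-- edge weight -/
def ne (B : Bil Q n ι) (K : Submodule (ZMod Q) (ι → ZMod Q)) (φ : (ι → ZMod Q) → ℝ)
    (y y' : V Q n) : ℝ :=
  φ (B y y') / avg K φ 0

/-- the weighted count of the grid with 2, p and N copies of the three variables -/
def grid (T : ℕ) (ν : V Q n → ℝ) (e : V Q n → V Q n → ℝ) (g : V Q n → V Q n → V Q n → ℝ)
    (p N : ℕ) : ℝ :=
  𝔼 w ∈ Fintype.piFinset (fun _ : Fin N => bx Q n T),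
    𝔼 y ∈ Fintype.piFinset (fun _ : Fin p => bx Q n T),
      (∏ l, ν (w l)) * (∏ i, ν (y i)) * (∏ i, ∏ l, e (y i) (w l)) *
        (𝔼 x ∈ bx Q n T, ν x * (∏ l, e x (w l)) * (∏ i, e x (y i)) *
          ∏ i, ∏ l, g x (y i) (w l)) ^ 2

/-- mass of a Laplace weight on a box -/
def mas {κ : Type} [Fintype κ] (L : V Q n →ₗ[ZMod Q] (κ → ZMod Q)) (c : κ → ZMod Q) (ρ : ℝ)
    (T : ℕ) : ℝ :=
  𝔼 y ∈ bx Q n T, lap ρ (L y - c)

/-- the normalised Laplace weight on a box -/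
def bet {κ : Type} [Fintype κ] (L : V Q n →ₗ[ZMod Q] (κ → ZMod Q)) (c : κ → ZMod Q) (ρ : ℝ)
    (T : ℕ) (x : V Q n) : ℝ :=
  lap ρ (L x - c) / mas L c ρ T

/-- the tile of side Tt with index j -/
def tile (Q n Tt : ℕ) [Fact Q.Prime] (j : Fin n → ℕ) : Finset (V Q n) :=
  (bx Q n Tt).image fun x => x + fun i => ((Tt * j i : ℕ) : ZMod Q)

/-- on E the map ξ is nearly affine along every progression on which Θ is small -/
def Chart (ξ : V Q n → V Q n) (E Θ : Finset (V Q n)) (Tc W : ℕ) (τ : ℝ) : Prop :=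
  ∀ (n' T0 TP : ℕ) (P : V Q n' →ₗ[ZMod Q] V Q n), n' ≤ n → 1 ≤ TP → T0 * TP ≤ Tc →
    SmallMap P T0 → (∀ θ ∈ Θ, ∀ m, nm (θ ⬝ᵥ P (Pi.single m 1)) ≤ 1 / ((W : ℝ) * TP)) →
    ∃ Ξ : V Q n' →ₗ[ZMod Q] V Q n, ∀ h ∈ E, ∀ h' ∈ E, ∀ a : V Q n', Near a TP → h - h' = P a →
      ∀ i, nm ((ξ h - ξ h' - Ξ a) i) ≤ τ

open Classical in
/-- proportion of approximately respected parallelograms inside U -/
def ener (ξ : V Q n → V Q n) (U : Finset (V Q n)) (T Tb Ta : ℕ) (τ : ℝ) : ℝ :=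
  𝔼 h ∈ bx Q n T, 𝔼 b ∈ bx Q n Tb, 𝔼 b' ∈ bx Q n Tb, 𝔼 a ∈ bx Q n Ta, 𝔼 a' ∈ bx Q n Ta,
    if h + b + a ∈ U ∧ h + b + a' ∈ U ∧ h + b' + a ∈ U ∧ h + b' + a' ∈ U ∧
      ∀ i, nm ((ξ (h + b + a) - ξ (h + b + a') - ξ (h + b' + a) + ξ (h + b' + a')) i) ≤ τ
    then (1 : ℝ) else 0

end

end Vale.Agent.P057Z
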