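import Vale.Agent.P057Z.Defs

/-! Block interfaces (notes/P057_k4.md). -/

set_option linter.all false

open Finset
open scoped BigOperators

namespace Vale.Agent.P057Z

noncomputable section

/-- a weight of a sum has mean one against all products -/
def Mix {Q : ℕ} [Fact Q.Prime] {n : ℕ} (om : V Q n → ℝ) (Tlo Thi : ℕ) (δ : ℝ) : Prop :=
  ∀ T1 T2 : ℕ, Tlo ≤ T1 → T1 ≤ Thi → Tlo ≤ T2 → T2 ≤ Thi → ∀ (c : V Q n) (s : ℤ), (s = 1 ∨ s = -1) →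
    ∀ u v : V Q n → ℝ, (∀ x, |u x| ≤ 1) → (∀ y, |v y| ≤ 1) →
      |𝔼 x ∈ bx Q n T1, 𝔼 y ∈ bx Q n T2, u x * v y * (om (c + x + s • y) - 1)| ≤ δ

/-- the rectangle average with explicit sides -/
def RQ {Q : ℕ} [Fact Q.Prime] {n : ℕ} {ι : Type} [Fintype ι] [DecidableEq ι] (f : V Q n → ℝ) (θ : ℝ)
    (T W : ℕ) (q : Quad Q n ι) (Ψ : (ι → ZMod Q) → ℝ) (u Y : V Q n → ℝ) : ℝ :=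
  𝔼 a ∈ bx Q n T, 𝔼 b ∈ bx Q n (W * T), u a * Y b * Ψ (q.ev (a + b)) * (f (a + b) - θ)

/-! ### Block Ke: tools -/

/-- boxes are almost invariant -/
def FOL : Prop :=
  ∀ (Q : ℕ) [Fact Q.Prime] (n T t : ℕ) (v : V Q n) (S : ℝ), 1 ≤ T → T ≤ Q → Near v t →
    (∀ g : V Q n → ℂ, (∀ x, ‖g x‖ ≤ S) →
      ‖(𝔼 x ∈ bx Q n T, g (x + v)) - 𝔼 x ∈ bx Q n T, g x‖ ≤ 2 * n * t * S / T) ∧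
    (∀ g : V Q n → ℝ, (∀ x, |g x| ≤ S) →
      |(𝔼 x ∈ bx Q n T, g (x + v)) - 𝔼 x ∈ bx Q n T, g x| ≤ 2 * n * t * S / T)

/-- smoothing -/
def SM : Prop :=
  ∀ (Q : ℕ) [Fact Q.Prime] (ι : Type) [Fintype ι] [DecidableEq ι] (Y J lam e : ℝ)
    (Ψ : (ι → ZMod Q) → ℝ), 10 ≤ Y → (Fintype.card ι : ℝ) ≤ Y → 0 ≤ lam → lam ≤ Real.exp Y →
    Real.exp (-Y) ≤ e → e ≤ 1 → J ≤ Real.exp Y → Real.exp (5 * Y) ≤ Q → LL lam Ψ →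
    ∃ (Ψ' : (ι → ZMod Q) → ℝ) (K0 : ℕ), (K0 : ℝ) ≤ Real.exp (5 * Y) ∧ LL lam Ψ' ∧
      (∀ u, (1 - e) * Ψ u ≤ Ψ' u ∧ Ψ' u ≤ (1 + e) * Ψ u) ∧
      FA Ψ' K0 (Real.exp (6 * Y ^ 2)) (Real.exp (-J))

/-- popular centre, and the mass of the kernel on an annihilator -/
def POP : Prop :=
  ∀ (Q : ℕ) [Fact Q.Prime] (ι : Type) [Fintype ι] [DecidableEq ι] (ρ : ℝ), 0 < ρ → ρ ≤ 1 →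
    (∀ (α : Type) (s : Finset α) (L : α → ι → ZMod Q), s.Nonempty → ∃ x0 ∈ s,
      (ρ / (3 * (Fintype.card ι + 1))) ^ Fintype.card ι / 3 ≤ 𝔼 x ∈ s, lap ρ (L x - L x0)) ∧
    ∀ K : Submodule (ZMod Q) (ι → ZMod Q),
      (ρ / (3 * (Fintype.card ι + 1))) ^ Fintype.card ι / 3 ≤ avg K (lap ρ) 0

/-- averaging over an annihilator keeps the classes and selects the frequencies -/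
def AVG : Prop :=
  ∀ (Q : ℕ) [Fact Q.Prime] (ι : Type) [Fintype ι] [DecidableEq ι]
    (K : Submodule (ZMod Q) (ι → ZMod Q)) (Ψ : (ι → ZMod Q) → ℝ),
    (∀ lam, LL lam Ψ → LL lam (avg K Ψ)) ∧
    (∀ u, ∀ v ∈ perp K, avg K Ψ (u + v) = avg K Ψ u) ∧
    ∀ (K0 : ℕ) (η : ℝ) (c : (ι → ℤ) → ℂ),
      (∀ u, ‖(Ψ u : ℂ) - ∑ k ∈ Sm ι K0, c k * ch (cs Q k ⬝ᵥ u)‖ ≤ η) →
      ∀ u, ‖(avg K Ψ u : ℂ) - ∑ k ∈ Sm ι K0,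
        (open Classical in if cs Q k ∈ K then c k else 0) * ch (cs Q k ⬝ᵥ u)‖ ≤ η

/-- equidistribution against products -/
def EQ : Prop :=
  ∀ (Q : ℕ) [Fact Q.Prime] (n : ℕ) (ι κ : Type) [Fintype ι] [DecidableEq ι] [Fintype κ]
    [DecidableEq κ] (B : Bil Q n ι) (K : Submodule (ZMod Q) (ι → ZMod Q)) (K0 K0' K1 Tlo Thi T1 T2 : ℕ)
    (δ M η M' η' S : ℝ) (j : ℤ) (Φ : (ι → ZMod Q) → ℝ) (Φ' : (κ → ZMod Q) → ℝ)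
    (a b : V Q n → ι → ZMod Q) (a' b' : V Q n → κ → ZMod Q) (u v : V Q n → ℝ),
    Reg B K K1 δ Tlo Thi → 0 ≤ δ → (∀ x y, B x y ∈ perp K) → (j : ZMod Q) ≠ 0 → j.natAbs * K0 ≤ K1 →
    1 ≤ Tlo → Tlo ≤ T1 → T1 ≤ Thi → Tlo ≤ T2 → T2 ≤ Thi →
    FA Φ K0 M η → FA Φ' K0' M' η' → (∀ z, |Φ z| ≤ S) → (∀ x, |u x| ≤ 1) → (∀ y, |v y| ≤ 1) →
    |𝔼 x ∈ bx Q n T1, 𝔼 y ∈ bx Q n T2, u x * v y *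
        (Φ (j • B x y + a x + b y) - avg K Φ (a x + b y))| ≤ M * δ + 2 * η ∧
    |𝔼 x ∈ bx Q n T1, 𝔼 y ∈ bx Q n T2, u x * v y *
        (Φ (j • B x y + a x + b y) - avg K Φ (a x + b y)) * Φ' (a' x + b' y)|
      ≤ M' * (M * δ + 2 * η) + 2 * S * η'

/-- killing linear frequencies by a progression of slightly smaller rank -/
def KILL : Prop :=
  ∀ (Q : ℕ) [Fact Q.Prime] (n J r T W : ℕ) (Θ : Finset (V Q n)), Θ.card ≤ r → 1 ≤ J →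
    2 * J * r ≤ n → 1 ≤ W → W ≤ T → T < Q →
    ∃ (T0 : ℕ) (P : V Q (n - 2 * J * r) →ₗ[ZMod Q] V Q n), 1 ≤ T0 ∧
      Real.log T0 ≤ Real.log T / J ∧ Function.Injective P ∧ SmallMap P T0 ∧
      ∀ θ ∈ Θ, ∀ m, nm (θ ⬝ᵥ P (Pi.single m 1)) ≤ 1 / ((W : ℝ) * T)

/-- a biased bilinear form is major arc -/
def VIN : Prop :=
  ∀ (Q : ℕ) [Fact Q.Prime] (n T1 T2 : ℕ) (δ : ℝ)
    (C : V Q n →ₗ[ZMod Q] V Q n →ₗ[ZMod Q] ZMod Q) (u v : V Q n → ℂ),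
    0 < δ → δ ≤ 1 → (10 / δ) ^ 10 ≤ (T1 : ℝ) → (10 / δ) ^ 10 ≤ (T2 : ℝ) → T1 ≤ Q → T2 ≤ Q →
    (∀ x, ‖u x‖ ≤ 1) → (∀ y, ‖v y‖ ≤ 1) →
    δ ≤ ‖𝔼 x ∈ bx Q n T1, 𝔼 y ∈ bx Q n T2, u x * v y * ch (C x y)‖ →
    ∃ D : Fin n → ℕ, (∀ m, 1 ≤ D m ∧ (D m : ℝ) ≤ 4 / δ ^ 2) ∧
      ∀ i m, nm ((D m : ZMod Q) * C (Pi.single i 1) (Pi.single m 1)) ≤
        (10 / δ) ^ 10 / ((T1 : ℝ) * T2)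

/-- a small dual family (adjugate of a nonzero minor) -/
def CR : Prop :=
  ∀ (Q : ℕ) [Fact Q.Prime] (ι : Type) [Fintype ι] [DecidableEq ι] (j K0 : ℕ) (b : Fin j → ι → ℤ),
    1 ≤ K0 → (∀ i, b i ∈ Sm ι K0) → LinearIndependent (ZMod Q) (fun i => cs Q (b i)) →
    ∃ (D0 : ℤ) (w : Fin j → ι → ℤ), (D0 : ZMod Q) ≠ 0 ∧ |D0| ≤ (j.factorial * K0 ^ j : ℕ) ∧
      (∀ i, w i ∈ Sm ι (j.factorial * K0 ^ j)) ∧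
      ∀ i i', b i ⬝ᵥ w i' = if i = i' then D0 else 0

/-! ### Block St: the hypergraph step -/

def HG : Prop :=
  ∃ e1 : ℝ, 0 < e1 ∧ e1 ≤ 1 ∧ ∃ e0 : ℝ, 0 < e0 ∧ ∃ C : ℕ, ∀ (X Y δ : ℝ) (Ω : Type) [Fintype Ω]
    [DecidableEq Ω] (μ : Ω → ℝ) (e : Ω → Ω → ℝ) (f : Fin 4 → (Fin 3 → Ω) → ℝ),
    (C : ℝ) ≤ X → X ≤ Y → Y ^ C ≤ Real.exp X → 0 ≤ δ → δ ≤ Real.exp (-Y ^ C) →
    (∀ x, 0 ≤ μ x) → ∑ x, μ x = 1 → (∀ x y, e x y = e y x) →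
    (∀ x y, 0 ≤ e x y ∧ e x y ≤ Real.exp Y) →
    (∀ u v : Ω → ℝ, (∀ x, |u x| ≤ 1) → (∀ y, |v y| ≤ 1) →
      |∑ x, ∑ y, μ x * μ y * u x * v y * (e x y - 1)| ≤ δ) →
    (∀ i y, 0 ≤ f i y ∧ f i y ≤ Real.exp X) →
    (∀ i, 1 - e0 ≤ ∑ y : Fin 3 → Ω, (∏ l, μ (y l)) * (e (y 0) (y 1) * e (y 0) (y 2) * e (y 1) (y 2)) *
      f i y) →
    (∀ (i : Fin 4) (σ : Equiv.Perm (Fin 3)) (x y : Ω),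
      ∑ w, μ w * e x w * e y w * f i (![x, y, w] ∘ σ) ≤ (1 + e0) * ∑ w, μ w * e x w * e y w + δ) →
    (∑ y : Fin 4 → Ω, (∏ l, μ (y l)) *
      (e (y 0) (y 1) * e (y 0) (y 2) * e (y 0) (y 3) * e (y 1) (y 2) * e (y 1) (y 3) * e (y 2) (y 3)) *
      ∏ i : Fin 4, f i (y ∘ i.succAbove) ≤ e0) →
    ∃ (i : Fin 4) (σ : Equiv.Perm (Fin 3)) (p N : ℕ), 1 ≤ p ∧ (p : ℝ) ≤ X ^ C ∧ 1 ≤ N ∧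
      (N : ℝ) ≤ X ^ C ∧ 100 ≤ e1 * N ∧
      (1 + e1) ^ (2 * p * N) ≤ ∑ w : Fin N → Ω, ∑ y : Fin p → Ω,
        (∏ l, μ (w l)) * (∏ k, μ (y k)) * (∏ k, ∏ l, e (y k) (w l)) *
          (∑ x, μ x * (∏ l, e x (w l)) * (∏ k, e x (y k)) *
            ∏ k, ∏ l, f i (![x, y k, w l] ∘ σ)) ^ 2

/-! ### Block Km: relative sifting and almost periodicity -/

open Classical in
def KM : Prop :=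
  ∀ ε : ℝ, 0 < ε → ε ≤ 1 / 100 → ∃ c C : ℕ, 1 ≤ c ∧ c ≤ C ∧ ∀ (X Y Z : ℝ) (Q : ℕ) [Fact Q.Prime] (n : ℕ) (κ : Type)
    [Fintype κ] [DecidableEq κ] (L : V Q n →ₗ[ZMod Q] (κ → ZMod Q)) (c0 c1 c2 : κ → ZMod Q)
    (ρ2 ρ3 ρ4 θ : ℝ) (T2 T3 T4 T6 : ℕ) (om2 om3 χ u v g : V Q n → ℝ),
    Par C X Y Z → (n : ℝ) ≤ Z → (Fintype.card κ : ℝ) ≤ Y →
    Real.exp (-Y) ≤ ρ4 → ρ4 ≤ 1 → Y ^ C * ρ4 ≤ ρ3 → Y ^ C * ρ4 ≤ ρ2 →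
    1 ≤ T6 → T6 * Real.exp (Z ^ C) ≤ T4 → T4 * Real.exp (Z ^ C) ≤ T3 →
    T3 * Real.exp (Z ^ C) ≤ T2 → 4 * T2 ≤ Q →
    Real.exp (-Y) ≤ mas L c0 ρ2 T2 → Real.exp (-Y) ≤ mas L c1 ρ3 T3 →
    Real.exp (-Y) ≤ mas L c2 ρ4 T4 →
    (∀ x, 0 ≤ om2 x ∧ om2 x ≤ Real.exp Y) → (∀ x, 0 ≤ om3 x ∧ om3 x ≤ Real.exp Y) →
    (∀ x, 0 ≤ χ x ∧ χ x ≤ Real.exp Y) →
    Mix om2 T6 (2 * T2) (Real.exp (-Z ^ C)) → Mix om3 T6 (2 * T2) (Real.exp (-Z ^ C)) →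
    Mix χ T6 (2 * T2) (Real.exp (-Z ^ C)) →
    (∀ x, 0 ≤ u x ∧ u x ≤ Real.exp X * om2 x) → (∀ x, 0 ≤ v x ∧ v x ≤ Real.exp X * om3 x) →
    (∀ x, 0 ≤ g x ∧ g x ≤ Real.exp X) → Real.exp (-X) ≤ θ →
    Real.exp (-X) ≤ 𝔼 a1 ∈ bx Q n T3, 𝔼 a2 ∈ bx Q n T4,
      bet L c1 ρ3 T3 a1 * bet L c2 ρ4 T4 a2 * u (a1 + a2) →
    Real.exp (-X) ≤ 𝔼 t ∈ bx Q n T2, bet L c0 ρ2 T2 t * v t →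
    θ * (𝔼 a1 ∈ bx Q n T3, 𝔼 a2 ∈ bx Q n T4, bet L c1 ρ3 T3 a1 * bet L c2 ρ4 T4 a2 * u (a1 + a2)) *
        (𝔼 t ∈ bx Q n T2, bet L c0 ρ2 T2 t * v t) ≤
      𝔼 a1 ∈ bx Q n T3, 𝔼 a2 ∈ bx Q n T4, 𝔼 t ∈ bx Q n T2,
        bet L c1 ρ3 T3 a1 * bet L c2 ρ4 T4 a2 * bet L c0 ρ2 T2 t * u (a1 + a2) * v t *
          (g (a1 + a2 + t) * χ (a1 + a2 + t)) →
    ∃ ξ : Fin ⌊X ^ c⌋₊ → V Q n,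
      Real.exp (-Y ^ C) ≤ 𝔼 z ∈ bx Q n T2, 𝔼 t2 ∈ bx Q n T6,
        if Real.exp (-Y ^ C) ≤ 𝔼 t1 ∈ bx Q n T6,
          lap (Real.exp (-X ^ c)) (fun i => ξ i ⬝ᵥ (t1 - t2)) *
            lap (ρ4 * Real.exp (-X ^ c)) (L (t1 - t2)) * χ (z + t1 - t2) *
              (g (z + t1 - t2) - (1 - ε) * θ)
        then (1 : ℝ) else 0

/-! ### Block Fr: energy gives a chart -/

def FR : Prop :=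
  ∃ C : ℕ, ∀ (X Y Z τ : ℝ) (Q : ℕ) [Fact Q.Prime] (n W Tc Tt I : ℕ) (ξ : V Q n → V Q n)
    (U : Finset (V Q n)),
    Par C X Y Z → (n : ℝ) ≤ Z → Real.exp (Z ^ C) ≤ W → 1 ≤ Tc → W ^ 5 * Tc ≤ Tt → W ^ 3 ≤ I →
    4 * (I * Tt) ≤ Q → (Tt : ℝ) ≤ τ * Q → (W : ℝ) ^ 2 * τ ≤ 1 → U ⊆ bx Q n (I * Tt) →
    Real.exp (-Y) ≤ ener ξ U (I * Tt) (W ^ 2 * Tt) (W * Tt) τ →
    ∃ (j : Fin n → ℕ) (E Θ : Finset (V Q n)), (∀ i, j i < I) ∧ E ⊆ U ∩ tile Q n Tt j ∧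
      Real.exp (-Y ^ C) * (Tt : ℝ) ^ n ≤ E.card ∧ (Θ.card : ℝ) ≤ Y ^ C ∧
      Chart ξ E Θ Tc W (W * τ)

/-! ### Block Dr: from frequencies depending on h to bilinear forms -/

/-- two Cauchy-Schwarz steps -/
def EN : Prop :=
  ∀ (Q : ℕ) [Fact Q.Prime] (n T Ts Tb Ta : ℕ) (δ τ : ℝ) (ξ : V Q n → V Q n) (U : Finset (V Q n))
    (c Y G : V Q n → ℂ), 1 ≤ Ta → 1 ≤ Tb → 1 ≤ T → 1 ≤ Ts → T ≤ Q → Ts ≤ Q → 0 < δ → δ ≤ 1 → 0 < τ →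
    100 * n * (Ta : ℝ) ≤ δ ^ 4 * T → 100 * n * (Tb : ℝ) ≤ δ ^ 4 * T →
    100 * n * (Tb : ℝ) ≤ δ ^ 4 * Ts → 100 ≤ δ ^ 4 * τ * Ts →
    (∀ h, ‖c h‖ ≤ 1) → (∀ h, h ∉ U → c h = 0) → (∀ s, ‖Y s‖ ≤ 1) → (∀ z, ‖G z‖ ≤ 1) →
    δ ≤ ‖𝔼 h ∈ bx Q n T, 𝔼 s ∈ bx Q n Ts, c h * Y s * G (h + s) * ch (ξ h ⬝ᵥ s)‖ →
    δ ^ 4 / 2 ≤ ener ξ U T Tb Ta τ

def DROP : Prop :=
  ∀ ε : ℝ, 0 < ε → ε ≤ 1 / 100 → ∃ C : ℕ, ∀ (X Y Z : ℝ) (Q : ℕ) [Fact Q.Prime] (n r J T W : ℕ)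
    (ι : Type) [Fintype ι] [DecidableEq ι] (f : V Q n → ℝ) (θ ρn ρ5 κ : ℝ)
    (ξ : V Q n → Fin r → V Q n) (B : Bil Q n ι),
    Par C X Y Z → (n : ℝ) ≤ Z → 1 ≤ J → (J : ℝ) ≤ Z → J * Y ^ C ≤ n → (r : ℝ) ≤ Y →
    (Fintype.card ι : ℝ) ≤ Y → Real.exp (Z ^ C) ≤ W → Z ^ C * Real.log W ≤ Real.log T →
    (W * T) ^ 2 ≤ Q → (∀ x, 0 ≤ f x ∧ f x ≤ Real.exp Y) → 0 ≤ θ → θ ≤ 2 →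
    Real.exp (-Y) ≤ ρ5 → ρ5 ≤ ρn → ρn ≤ 1 → Real.exp (-Y) ≤ κ → (∀ x y, B x y = B y x) →
    S3 f θ T W ξ B ρn ρ5 κ →
    ∃ (n' T' : ℕ) (x0 : V Q n) (P : V Q n' →ₗ[ZMod Q] V Q n) (C' : Bil Q n' (Fin r ⊕ ι))
      (Ω : (Fin r ⊕ ι → ZMod Q) → ℝ), Function.Injective P ∧
      Shr n T n' T' (J * Y ^ C) (1 / J) (Z ^ C * Real.log W) ∧ LL (1 / ρ5) Ω ∧
      Rect (fun z => f (x0 + P z)) ((1 - ε) * θ) T' W C' Ω (Real.exp (-Y ^ C))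

/-! ### Block Rg: symmetry, cells, regularisation, iteration -/

def SY : Prop :=
  ∀ ε : ℝ, 0 < ε → ε ≤ 1 / 100 → ∃ C : ℕ, ∀ (X Y Z : ℝ) (Q : ℕ) [Fact Q.Prime] (n T W : ℕ)
    (ι : Type) [Fintype ι] [DecidableEq ι] (f : V Q n → ℝ) (θ lam κ : ℝ) (C0 : Bil Q n ι)
    (Ω : (ι → ZMod Q) → ℝ),
    Par C X Y Z → (n : ℝ) ≤ Z → (Fintype.card ι : ℝ) ≤ Y → Real.exp (Z ^ C) ≤ W →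
    Z ^ C * Real.log W ≤ Real.log T → (W * T) ^ 2 ≤ Q → (∀ x, 0 ≤ f x ∧ f x ≤ Real.exp Y) →
    0 ≤ θ → θ ≤ 2 → 0 ≤ lam → lam ≤ Real.exp Y → Real.exp (-Y) ≤ κ → LL lam Ω →
    Rect f θ T W C0 Ω κ →
    ∃ (T' : ℕ) (x0 : V Q n) (P : V Q n →ₗ[ZMod Q] V Q n) (C' : Bil Q n ι)
      (Ω' : (ι → ZMod Q) → ℝ), Function.Injective P ∧
      Shr n T n T' 0 0 (Z ^ C * Real.log W) ∧ (∀ x y, C' x y = C' y x) ∧ LL lam Ω' ∧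
      Rect (fun z => f (x0 + P z)) ((1 - ε) * θ) T' W C' Ω' (κ / 4)

def CELL : Prop :=
  ∀ ε : ℝ, 0 < ε → ε ≤ 1 / 100 → ∃ C : ℕ, ∀ (Y : ℝ) (Q : ℕ) [Fact Q.Prime] (n T W : ℕ)
    (ι : Type) [Fintype ι] [DecidableEq ι] (f : V Q n → ℝ) (θ lam κ : ℝ) (C0 : Bil Q n ι)
    (Ω : (ι → ZMod Q) → ℝ),
    (C : ℝ) ≤ Y → (Fintype.card ι : ℝ) ≤ Y → 2 < Q → (∀ x, 0 ≤ f x) → 0 ≤ θ → 0 ≤ lam →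
    lam ≤ Real.exp Y → 0 < κ → LL lam Ω → (∀ x y, C0 x y = C0 y x) → Rect f θ T W C0 Ω κ →
    ∃ (q : Quad Q n ι) (Ψ : (ι → ZMod Q) → ℝ), LL lam Ψ ∧
      RectQ f ((1 - ε) * θ) T W q Ψ (κ * Real.exp (-Y ^ C))

def RG2 : Prop :=
  ∃ C : ℕ, ∀ (X Y Z : ℝ) (Q : ℕ) [Fact Q.Prime] (n J T W K0 : ℕ)
    (ι : Type) [Fintype ι] [DecidableEq ι] (f : V Q n → ℝ) (θ lam κ δ : ℝ) (q : Quad Q n ι)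
    (Ψ : (ι → ZMod Q) → ℝ) (u v : V Q n → ℝ),
    Par C X Y Z → (n : ℝ) ≤ Z → 1 ≤ J → (J : ℝ) ≤ Z → J * Y ^ C ≤ n → (Fintype.card ι : ℝ) ≤ Y →
    Real.exp (Z ^ C) ≤ W → Z ^ C * Real.log W ≤ Real.log T → (W * T) ^ 2 ≤ Q →
    (∀ x, |f x - θ| ≤ Real.exp Z) → 0 ≤ lam → lam ≤ Real.exp Z → (K0 : ℝ) ≤ Real.exp Z →
    Real.exp (-Z) ≤ κ → Real.exp (-Z) ≤ δ → LL lam Ψ → U01 u → U01 v → κ ≤ RQ f θ T W q Ψ u v →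
    ∃ (n' T' : ℕ) (a0 b0 : V Q n) (P : V Q n' →ₗ[ZMod Q] V Q n) (q' : Quad Q n' ι)
      (K : Submodule (ZMod Q) (ι → ZMod Q)), Function.Injective P ∧
      Shr n T n' T' (J * Y ^ C) (1 / J) (Z ^ C * Real.log W) ∧ Triv q' K ∧
      Reg q'.B K K0 δ (T' / W ^ 20) (W * T') ∧
      κ / 2 ≤ RQ (fun z => f (a0 + b0 + P z)) θ T' W q' Ψ (fun a => u (a0 + P a))
        (fun b => v (b0 + P b))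

/-! ### Block Fn: the last step -/

def FIN : Prop :=
  ∀ ε : ℝ, 0 < ε → ε ≤ 1 / 100 → ∃ C : ℕ, ∀ (X Y Z : ℝ) (Q : ℕ) [Fact Q.Prime] (n J T W K0 : ℕ)
    (ι : Type) [Fintype ι] [DecidableEq ι] (f : V Q n → ℝ) (θ lam κ δ : ℝ) (q : Quad Q n ι)
    (Ψ : (ι → ZMod Q) → ℝ) (K : Submodule (ZMod Q) (ι → ZMod Q)),
    Par C X Y Z → (n : ℝ) ≤ Z → 1 ≤ J → (J : ℝ) ≤ Z → J * Y ^ C ≤ n → (Fintype.card ι : ℝ) ≤ Y →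
    Real.exp (Z ^ C) ≤ W → Z ^ C * Real.log W ≤ Real.log T → (W * T) ^ 2 ≤ Q →
    (∀ x, 0 ≤ f x ∧ f x ≤ Real.exp Y) → 1 / 2 ≤ θ → θ ≤ 2 → 0 ≤ lam → lam ≤ Real.exp Y →
    Real.exp (-Y) ≤ κ → Real.exp (Y ^ C) ≤ K0 → 0 ≤ δ → δ ≤ Real.exp (-Z ^ C) → LL lam Ψ →
    Triv q K → Reg q.B K K0 δ (T / W ^ 20) (W * T) → RectQ f θ T W q Ψ κ →
    Inc f ((1 - ε) * θ) T (J * Y ^ C) (1 / J) (Z ^ C * Real.log W) (Fintype.card ι) lam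
      (Real.exp (-Y ^ C))

/-! ### Blocks Sa, Gr: from a regular cell to the grid, from the grid to S3 -/

def START : Prop :=
  ∃ e1 : ℝ, 0 < e1 ∧ e1 ≤ 1 ∧ ∃ e0 : ℝ, 0 < e0 ∧ e0 ≤ 1 / 100 ∧ ∃ C : ℕ, ∀ (X Y Z : ℝ) (Q : ℕ)
    [Fact Q.Prime] (n J T W K0 K1 : ℕ) (ι : Type) [Fintype ι] [DecidableEq ι] (f : V Q n → ℝ)
    (lam κ δ ρ' ρ0 M η : ℝ) (q : Quad Q n ι) (Ψ φ φ0 : (ι → ZMod Q) → ℝ)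
    (K : Submodule (ZMod Q) (ι → ZMod Q)),
    Par C X Y Z → (n : ℝ) ≤ Z → 1 ≤ J → (J : ℝ) ≤ Z → J * Y ^ C ≤ n → (Fintype.card ι : ℝ) ≤ Y →
    Real.exp (Z ^ C) ≤ W → Z ^ C * Real.log W ≤ Real.log T → T ^ 2 ≤ Q →
    (∀ x, 0 ≤ f x ∧ f x ≤ Real.exp X) → Free f → 1 ≤ lam → LL lam Ψ → Real.exp (-Z) ≤ κ →
    κ ≤ 𝔼 x ∈ bx Q n T, Ψ (q.ev x) * (f x - 1) →
    Triv q K → 0 ≤ δ → δ ≤ Real.exp (-Z ^ C) → Reg q.B K K1 δ (T / W ^ 20) T → 1000 * K0 ≤ K1 →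
    Real.exp (-Y) ≤ ρ0 → ρ0 ≤ ρ' → Z ^ C * lam * ρ' ≤ 1 → M ≤ Real.exp Y →
    η ≤ Real.exp (-Z ^ C) → Kern ρ' φ K0 M η → Kern ρ0 φ0 K0 M η →
    ¬ Inc f (1 + e0) T (J * Y ^ C) (1 / J) (Z ^ C * Real.log W) (Fintype.card ι) (1 / ρ0)
      (Real.exp (-Y ^ C)) →
    ∃ (x0 : V Q n) (ℓ : V Q n →ₗ[ZMod Q] (ι → ZMod Q)) (a b c : ℤ) (p N : ℕ),
      (∀ y, ℓ y ∈ perp K) ∧ a ≠ 0 ∧ |a| ≤ 3 ∧ b ≠ 0 ∧ |b| ≤ 3 ∧ c ≠ 0 ∧ |c| ≤ 3 ∧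
      1 ≤ p ∧ (p : ℝ) ≤ X ^ C ∧ 1 ≤ N ∧ (N : ℝ) ≤ X ^ C ∧ 100 ≤ e1 * N ∧
      |(𝔼 y ∈ bx Q n (T / W), nv ℓ q.B K φ φ0 y) - 1| ≤ Real.exp (-Z) ∧
      (1 + e1) ^ (2 * p * N) / 2 ≤ grid (T / W) (nv ℓ q.B K φ φ0) (ne q.B K φ)
        (fun x y w => f (x0 + a • x + b • y + c • w)) p N

def GR : Prop :=
  ∀ e1 : ℝ, 0 < e1 → e1 ≤ 1 → ∃ C : ℕ, ∀ (X Y Z : ℝ) (Q : ℕ) [Fact Q.Prime]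
    (n T W K0 K1 p N : ℕ) (ι : Type) [Fintype ι] [DecidableEq ι] (f : V Q n → ℝ)
    (δ ρ' ρ0 M η : ℝ) (B : Bil Q n ι) (φ φ0 : (ι → ZMod Q) → ℝ)
    (K : Submodule (ZMod Q) (ι → ZMod Q)) (x0 : V Q n) (ℓ : V Q n →ₗ[ZMod Q] (ι → ZMod Q))
    (a b c : ℤ),
    Par C X Y Z → (n : ℝ) ≤ Z → (Fintype.card ι : ℝ) ≤ Y →
    Real.exp (Z ^ C) ≤ W → Z ^ C * Real.log W ≤ Real.log T → T ^ 2 ≤ Q →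
    (∀ x, 0 ≤ f x ∧ f x ≤ Real.exp X) → (∀ x y, B x y = B y x) → (∀ x y, B x y ∈ perp K) →
    (∀ y, ℓ y ∈ perp K) → 0 ≤ δ → δ ≤ Real.exp (-Z ^ C) → Reg B K K1 δ (T / W ^ 15) T →
    1000 * K0 ≤ K1 → Real.exp (-Y) ≤ ρ0 → Z ^ C * ρ0 ≤ ρ' → ρ' ≤ 1 → M ≤ Real.exp Y →
    η ≤ Real.exp (-Z ^ C) → Kern ρ' φ K0 M η → Kern ρ0 φ0 K0 M η →
    a ≠ 0 → |a| ≤ 3 → b ≠ 0 → |b| ≤ 3 → c ≠ 0 → |c| ≤ 3 →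
    1 ≤ p → (p : ℝ) ≤ X → 1 ≤ N → (N : ℝ) ≤ X → 100 ≤ e1 * N →
    |(𝔼 y ∈ bx Q n T, nv ℓ B K φ φ0 y) - 1| ≤ Real.exp (-Y ^ C) →
    (1 + e1) ^ (2 * p * N) / 2 ≤ grid T (nv ℓ B K φ φ0) (ne B K φ)
        (fun x y w => f (x0 + a • x + b • y + c • w)) p N →
    ∃ (x1 : V Q n) (j : ℤ) (r : ℕ) (ξ : V Q n → Fin r → V Q n) (ρn ρ5 : ℝ), (j : ZMod Q) ≠ 0 ∧
      (r : ℝ) ≤ X ^ C ∧ ρ0 * Real.exp (-X ^ C) ≤ ρ5 ∧ ρ5 ≤ ρn ∧ ρn ≤ 1 ∧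
      S3 (fun z => f (x1 + j • z)) (1 + e1 / 4) (T / W ^ 12) W ξ (j • B) ρn ρ5
        (Real.exp (-Y ^ C))

/-! ### The increment, the bound -/

def MAIN : Prop :=
  ∃ ε : ℝ, 0 < ε ∧ ε ≤ 1 ∧ ∃ C : ℕ, ∀ (X Y Z : ℝ) (Q : ℕ) [Fact Q.Prime] (n J T : ℕ)
    (ι : Type) [Fintype ι] [DecidableEq ι] (f : V Q n → ℝ) (lam κ : ℝ) (q : Quad Q n ι)
    (Ψ : (ι → ZMod Q) → ℝ),
    Par C X Y Z → (n : ℝ) ≤ Z → 1 ≤ J → (J : ℝ) ≤ Z → J * Y ^ C ≤ n → (Fintype.card ι : ℝ) ≤ Y →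
    Z ^ C ≤ Real.log T → T ^ 2 ≤ Q → (∀ x, 0 ≤ f x ∧ f x ≤ Real.exp X) → Free f →
    1 ≤ lam → lam ≤ Real.exp Y → LL lam Ψ → Real.exp (-Z) ≤ κ →
    κ ≤ 𝔼 x ∈ bx Q n T, Ψ (q.ev x) * (f x - 1) →
    Inc f (1 + ε) T (J * Y ^ C) (1 / J) (Z ^ C) (Fintype.card ι + X ^ C)
      (lam * Real.exp (X ^ C)) (Real.exp (-Y ^ C))

def BOUND : Prop :=
  ∃ C : ℕ, ∀ (N : ℕ) (A : Finset ℕ) (L : ℝ), A ⊆ range N →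
    (∀ a d : ℕ, 0 < d → ¬ (a ∈ A ∧ a + d ∈ A ∧ a + 2 * d ∈ A ∧ a + 3 * d ∈ A)) →
    0 ≤ L → 1 ≤ N → N * Real.exp (-L) ≤ A.card → Real.log N ≤ (C + L) ^ C

def RESULT : Prop :=
  (∃ c : ℝ, 0 < c ∧ ∃ N₀ : ℕ, ∀ N : ℕ, N₀ ≤ N → ∀ A : Finset ℕ, A ⊆ Icc 1 N →
    (∀ a d : ℕ, 0 < d → ¬ (a ∈ A ∧ a + d ∈ A ∧ a + 2 * d ∈ A ∧ a + 3 * d ∈ A)) →
    (A.card : ℝ) ≤ N * Real.exp (-(Real.log N) ^ c)) ∧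
  ∀ A : Set ℕ, (∀ a ∈ A, 0 < a) → ¬ Summable (fun a : A => (1 : ℝ) / ((a : ℕ) : ℝ)) →
    ∃ a d : ℕ, 0 < d ∧ a ∈ A ∧ a + d ∈ A ∧ a + 2 * d ∈ A ∧ a + 3 * d ∈ A

end

end Vale.Agent.P057Z
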